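import Mathlib

set_option autoImplicit false

/-!
A two-sided nil ideal of a finite dimensional rational algebra is nilpotent.
-/

namespace Vale.Agent.P057.R3.H244

theorem nil_ideal {R : Type} [Ring R] [Algebra ℚ R] [Module.Finite ℚ R] (I : Ideal R)
    [I.IsTwoSided] (h : ∀ z ∈ I, IsNilpotent z) : ∃ d : ℕ, I ^ d = ⊥ := by
  have hart : IsArtinianRing R := isArtinian_of_tower ℚ inferInstance
  have hle : I ≤ Ring.jacobson R := by
    intro x hx
    rw [← Ideal.jacobson_bot, Ideal.mem_jacobson_iff]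
    intro y
    have h1 : IsNilpotent (y * x) := h _ (I.mul_mem_left y hx)
    have h2 : IsUnit (1 + y * x) := by
      have := h1.isUnit_add_one
      rwa [add_comm] at this
    obtain ⟨u, hu⟩ := h2
    refine ⟨((u⁻¹ : Rˣ) : R), ?_⟩
    have h3 : ((u⁻¹ : Rˣ) : R) * y * x + ((u⁻¹ : Rˣ) : R) - 1 = 0 := by
      have h4 : ((u⁻¹ : Rˣ) : R) * (1 + y * x) = 1 := by
        rw [← hu]
        exact u.inv_mul
      rw [mul_add, mul_one, ← mul_assoc] at h4
      rw [add_comm, h4, sub_self]
    rw [h3]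
    exact Submodule.zero_mem _
  obtain ⟨d, hd⟩ := IsSemiprimaryRing.isNilpotent (R := R)
  refine ⟨d, ?_⟩
  rw [eq_bot_iff]
  exact (Ideal.pow_right_mono hle d).trans (le_of_eq hd)

end Vale.Agent.P057.R3.H244
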