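import Mathlib

set_option autoImplicit false

/-!
An integer matrix whose powers have entries of polynomial size has trace at most `n`.
-/

namespace Vale.Agent.P057.R3.H244

open Filter Topology Matrix

theorem norm_le_one_of_growth {l : ℂ} {a K : ℝ} (ha : 0 < a) (c : ℕ)
    (h : ∀ k : ℕ, ‖l‖ ^ k * a ≤ K * ((k : ℝ) + 1) ^ c) : ‖l‖ ≤ 1 := by
  by_contra hl
  push Not at hl
  have h0 := tendsto_pow_const_div_const_pow_of_one_lt c hl
  have h1 : Tendsto (fun n : ℕ => (K * ‖l‖) * ((n : ℝ) ^ c / ‖l‖ ^ n)) atTop (𝓝 0) := by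
    simpa using h0.const_mul (K * ‖l‖)
  have h2 : ∀ᶠ n : ℕ in atTop, a ≤ (K * ‖l‖) * ((n : ℝ) ^ c / ‖l‖ ^ n) := by
    filter_upwards [eventually_ge_atTop 1] with n hn
    obtain ⟨k, rfl⟩ : ∃ k, n = k + 1 := ⟨n - 1, by omega⟩
    have h3 := h k
    have hp : 0 < ‖l‖ ^ k := by positivity
    rw [pow_succ ‖l‖ k, Nat.cast_add, Nat.cast_one]
    have e : K * ‖l‖ * (((k : ℝ) + 1) ^ c / (‖l‖ ^ k * ‖l‖)) =
        (K * ((k : ℝ) + 1) ^ c) / ‖l‖ ^ k := by
      have : ‖l‖ ≠ 0 := by linarith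
      field_simp
    rw [e, le_div_iff₀ hp]
    linarith
  have h4 := ge_of_tendsto h1 h2
  linarith

theorem tr_bound {n : ℕ} (A : Matrix (Fin n) (Fin n) ℤ) (C c : ℕ)
    (h : ∀ (k : ℕ) (i j : Fin n), |(A ^ k) i j| ≤ C * ((k : ℤ) + 1) ^ c) : |A.trace| ≤ n := by
  classical
  set A' : Matrix (Fin n) (Fin n) ℂ := A.map (Int.castRingHom ℂ) with hA'
  have hpow : ∀ k : ℕ, A' ^ k = (A ^ k).map (Int.castRingHom ℂ) := by
    intro k
    rw [hA']
    exact (map_pow (Int.castRingHom ℂ).mapMatrix A k).symm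
  have hroot : ∀ l ∈ A'.charpoly.roots, ‖l‖ ≤ 1 := by
    intro l hl
    have hl' : A'.charpoly.eval l = 0 := (Polynomial.mem_roots'.1 hl).2
    rw [Matrix.eval_charpoly] at hl'
    obtain ⟨v, hv0, hv⟩ := Matrix.exists_mulVec_eq_zero_iff.2 hl'
    have hv1 : A' *ᵥ v = l • v := by
      rw [Matrix.sub_mulVec, sub_eq_zero] at hv
      rw [← hv]
      ext i
      simp [Matrix.scalar_apply, Matrix.mulVec_diagonal]
    have hvk : ∀ k : ℕ, (A' ^ k) *ᵥ v = l ^ k • v := by
      intro k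
      induction k with
      | zero => simp
      | succ k ih =>
        rw [pow_succ, ← Matrix.mulVec_mulVec, hv1, Matrix.mulVec_smul, ih, smul_smul, pow_succ,
          mul_comm]
    obtain ⟨i, hi⟩ : ∃ i, v i ≠ 0 := by
      by_contra hne
      push Not at hne
      exact hv0 (funext hne)
    refine norm_le_one_of_growth (a := ‖v i‖) (K := C * ∑ j, ‖v j‖) (norm_pos_iff.2 hi) c ?_
    intro k
    have h1 : l ^ k * v i = ∑ j, (A' ^ k) i j * v j := by
      have := congrFun (hvk k) i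
      rw [Pi.smul_apply, smul_eq_mul] at this
      rw [← this]
      rfl
    have h2 : ∀ j, ‖(A' ^ k) i j‖ ≤ C * ((k : ℝ) + 1) ^ c := by
      intro j
      rw [hpow k, Matrix.map_apply]
      have h3 : ‖((Int.castRingHom ℂ) ((A ^ k) i j) : ℂ)‖ = ((|(A ^ k) i j| : ℤ) : ℝ) := by
        simp [Complex.norm_intCast]
      rw [h3]
      exact_mod_cast h k i j
    calc ‖l‖ ^ k * ‖v i‖ = ‖l ^ k * v i‖ := by rw [norm_mul, norm_pow]
      _ = ‖∑ j, (A' ^ k) i j * v j‖ := by rw [h1]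
      _ ≤ ∑ j, ‖(A' ^ k) i j * v j‖ := norm_sum_le _ _
      _ ≤ ∑ j, C * ((k : ℝ) + 1) ^ c * ‖v j‖ := by
          refine Finset.sum_le_sum fun j _ => ?_
          rw [norm_mul]
          exact mul_le_mul_of_nonneg_right (h2 j) (norm_nonneg _)
      _ = C * ∑ j, ‖v j‖ * ((k : ℝ) + 1) ^ c := by
          rw [Finset.mul_sum]
          refine Finset.sum_congr rfl fun j _ => ?_
          ring
      _ = C * (∑ j, ‖v j‖) * ((k : ℝ) + 1) ^ c := by rw [← Finset.sum_mul, mul_assoc]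
  have htr : (A'.trace : ℂ) = A'.charpoly.roots.sum := Matrix.trace_eq_sum_roots_charpoly A'
  have hsum : ∀ s : Multiset ℂ, (∀ l ∈ s, ‖l‖ ≤ 1) → ‖s.sum‖ ≤ Multiset.card s := by
    intro s
    induction s using Multiset.induction_on with
    | empty => intro _; simp
    | cons a s ih =>
      intro hs
      rw [Multiset.sum_cons, Multiset.card_cons]
      have h1 := hs a (Multiset.mem_cons_self a s)
      have h2 := ih (fun l hl => hs l (Multiset.mem_cons_of_mem hl))
      have h3 := norm_add_le a s.sum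
      push_cast
      linarith
  have hcard : (Multiset.card A'.charpoly.roots : ℝ) ≤ n := by
    have h1 := Polynomial.card_roots' A'.charpoly
    rw [Matrix.charpoly_natDegree_eq_dim, Fintype.card_fin] at h1
    exact_mod_cast h1
  have h5 : ‖A'.trace‖ ≤ n := by
    rw [htr]
    exact (hsum _ hroot).trans hcard
  have h6 : A'.trace = ((A.trace : ℤ) : ℂ) := by
    rw [hA', Matrix.trace, Matrix.trace, Int.cast_sum]
    rfl
  rw [h6, Complex.norm_intCast] at h5
  exact_mod_cast h5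

end Vale.Agent.P057.R3.H244
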