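import Mathlib

set_option autoImplicit false

/-!
A rational matrix all of whose positive powers have trace zero is nilpotent.
-/

namespace Vale.Agent.P057.R3.H244

open Polynomial

theorem trace_aeval_zero {n : ℕ} (A : Matrix (Fin n) (Fin n) ℚ)
    (h : ∀ k : ℕ, 1 ≤ k → (A ^ k).trace = 0) (s : ℕ) (w : ℚ[X]) :
    (aeval A (w * X ^ (s + 1))).trace = 0 := by
  induction w using Polynomial.induction_on' with
  | add p q hp hq => rw [add_mul, map_add, Matrix.trace_add, hp, hq, add_zero]
  | monomial k c =>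
    rw [Polynomial.X_pow_eq_monomial, Polynomial.monomial_mul_monomial, mul_one,
      Polynomial.aeval_monomial, Algebra.algebraMap_eq_smul_one, smul_mul_assoc, one_mul,
      Matrix.trace_smul, h _ (by omega), smul_zero]

theorem tr_nil {n : ℕ} (A : Matrix (Fin n) (Fin n) ℚ)
    (h : ∀ k : ℕ, 1 ≤ k → (A ^ k).trace = 0) : IsNilpotent A := by
  classical
  have hχ : A.charpoly ≠ 0 := (Matrix.charpoly_monic A).ne_zero
  obtain ⟨g, hg, hdvd⟩ :=
    Polynomial.exists_eq_pow_rootMultiplicity_mul_and_not_dvd A.charpoly hχ 0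
  rw [C_0, sub_zero] at hg hdvd
  set r := rootMultiplicity 0 A.charpoly with hr
  have hco : IsCoprime (X ^ (r + 1)) g :=
    ((Polynomial.irreducible_X.coprime_iff_not_dvd).2 hdvd).pow_left
  obtain ⟨u, v, huv⟩ := hco
  have hCH : aeval A (X ^ r * g) = 0 := by
    rw [← hg]
    exact Matrix.aeval_self_charpoly A
  have hP : aeval A (u * X ^ (r + 1)) * aeval A (u * X ^ (r + 1)) =
      aeval A (u * X ^ (r + 1)) := by
    have e : (u * X ^ (r + 1)) * (u * X ^ (r + 1)) =
        u * X ^ (r + 1) - (u * v * X) * (X ^ r * g) := by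
      have e1 : u * X ^ (r + 1) = 1 - v * g := by rw [← huv]; ring
      calc (u * X ^ (r + 1)) * (u * X ^ (r + 1)) = (u * X ^ (r + 1)) * (1 - v * g) := by rw [← e1]
        _ = u * X ^ (r + 1) - (u * v * X) * (X ^ r * g) := by ring
    rw [← map_mul, e, map_sub, map_mul (aeval A) (u * v * X), hCH, mul_zero, sub_zero]
  have hP0 : aeval A (u * X ^ (r + 1)) = 0 := by
    have h1 : IsIdempotentElem (Matrix.toLin' (aeval A (u * X ^ (r + 1)))) := by
      unfold IsIdempotentElem
      rw [Module.End.mul_eq_comp, ← Matrix.toLin'_mul, hP]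
    have h2 := LinearMap.IsIdempotentElem.eq_zero_of_trace_eq_zero h1 (by
      rw [Matrix.trace_toLin'_eq]
      exact trace_aeval_zero A h r u)
    exact (Matrix.toLin').map_eq_zero_iff.1 h2
  refine ⟨r, ?_⟩
  have e : (X ^ r : ℚ[X]) = X ^ r * (u * X ^ (r + 1)) + v * (X ^ r * g) := by
    calc (X ^ r : ℚ[X]) = X ^ r * (u * X ^ (r + 1) + v * g) := by rw [huv, mul_one]
      _ = X ^ r * (u * X ^ (r + 1)) + v * (X ^ r * g) := by ring
  have e2 : A ^ r = aeval A (X ^ r : ℚ[X]) := by rw [map_pow, aeval_X]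
  rw [e2, e, map_add, map_mul (aeval A) (X ^ r), map_mul (aeval A) v, hP0, hCH, mul_zero,
    mul_zero, add_zero]

end Vale.Agent.P057.R3.H244
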