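import Vale.Agent.P057.R3.H475.Defs

set_option autoImplicit false

namespace Vale.Agent.P057.R3.H244

open Vale.Agent.P057.H475

/-- ROW A, from ADD and PAIR as hypotheses (both in the literal form of the rows). -/
theorem rowA_of {Q B : Type} [AddCommMonoid B] {b : ℕ} (hb : 2 ≤ b)
    {𝒟 : Set (Q → ℕ → Q × B)}
    (hadd : ∀ (l s : ℕ) (δ : ℕ → Q → ℕ → Q × B) (q : Q) (x y : ℕ), x < b ^ s →
      arun b δ (s + l) q (x + b ^ s * y) =
        ((arun b (fun i => δ (s + i)) l (arun b δ s q x).1 y).1,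
          (arun b δ s q x).2 + (arun b (fun i => δ (s + i)) l (arun b δ s q x).1 y).2))
    (hpair : ∃ m : ℕ, ∀ δ : ℕ → Q → ℕ → Q × B, (∀ i, δ i ∈ 𝒟) →
      ∃ α β : ℕ, α < β ∧ β < b ^ m ∧ ∀ q, arun b δ m q β = arun b δ m q α) (K : ℕ) :
    ∃ m : ℕ, 0 < m ∧ ∀ δ : ℕ → Q → ℕ → Q × B, (∀ i, δ i ∈ 𝒟) →
      ∃ a Δ : ℕ, 0 < Δ ∧ a + Δ + K ≤ b ^ m ∧
        ∀ i < K, ∀ q, arun b δ m q (a + i + Δ) = arun b δ m q (a + i) := by
  obtain ⟨m₁, hm⟩ := hpair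
  refine ⟨K + 1 + m₁, by omega, fun δ hδ => ?_⟩
  obtain ⟨α, β, hαβ, hβ, hq⟩ := hm (fun i => δ (K + 1 + i)) (fun i => hδ _)
  have hK : K < b ^ (K + 1) :=
    lt_trans (Nat.lt_succ_self K) (Nat.lt_pow_self (by omega))
  have hP : 0 < b ^ (K + 1) := by positivity
  have e : b ^ (K + 1) * α + b ^ (K + 1) * (β - α) = b ^ (K + 1) * β := by
    rw [← mul_add]
    congr 1
    omega
  refine ⟨b ^ (K + 1) * α, b ^ (K + 1) * (β - α), Nat.mul_pos hP (by omega), ?_, ?_⟩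
  · rw [e, pow_add b (K + 1) m₁]
    calc b ^ (K + 1) * β + K ≤ b ^ (K + 1) * β + b ^ (K + 1) := by omega
      _ = b ^ (K + 1) * (β + 1) := by ring
      _ ≤ b ^ (K + 1) * b ^ m₁ := Nat.mul_le_mul_left _ hβ
  · intro i hi q
    have hi' : i < b ^ (K + 1) := lt_trans hi hK
    have e1 : b ^ (K + 1) * α + i + b ^ (K + 1) * (β - α) = i + b ^ (K + 1) * β := by omega
    have e2 : b ^ (K + 1) * α + i = i + b ^ (K + 1) * α := by omega
    rw [e1, e2, hadd m₁ (K + 1) δ q i β hi', hadd m₁ (K + 1) δ q i α hi', hq]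

end Vale.Agent.P057.R3.H244
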