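import Vale.Agent.P057.R3.H475.Defs

set_option autoImplicit false

/-!
P057, digit statistics with advice, row B (Hales-Jewett).
-/

namespace Vale.Agent.P057.R3.H244

open Vale.Agent.P057.H475

/-- The number with digits `g 0, …, g (m - 1)`. -/
def num (b : ℕ) : ℕ → (ℕ → ℕ) → ℕ
  | 0, _ => 0
  | m + 1, g => g 0 + b * num b m (fun t => g (t + 1))

theorem num_lin (b : ℕ) (m : ℕ) : ∀ (g h : ℕ → ℕ) (c : ℕ),
    num b m (fun t => g t + c * h t) = num b m g + c * num b m h := by
  induction m with
  | zero => intro g h c; simp [num]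
  | succ m ih =>
    intro g h c
    simp only [num]
    rw [ih (fun t => g (t + 1)) (fun t => h (t + 1)) c]
    ring

theorem num_lt {b : ℕ} (m : ℕ) : ∀ g : ℕ → ℕ, (∀ t < m, g t < b) → num b m g < b ^ m := by
  induction m with
  | zero => intro g _; simp [num]
  | succ m ih =>
    intro g hg
    have h1 := ih (fun t => g (t + 1)) (fun t ht => hg (t + 1) (by omega))
    have h2 := hg 0 (by omega)
    simp only [num]
    calc g 0 + b * num b m (fun t => g (t + 1)) < b + b * num b m (fun t => g (t + 1)) := by omega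
      _ = b * (num b m (fun t => g (t + 1)) + 1) := by ring
      _ ≤ b * b ^ m := Nat.mul_le_mul_left _ h1
      _ = b ^ (m + 1) := by ring

theorem num_pos {b : ℕ} (hb : 0 < b) (m : ℕ) : ∀ (g : ℕ → ℕ) (s : ℕ), s < m → 0 < g s →
    0 < num b m g := by
  induction m with
  | zero => intro g s hs; omega
  | succ m ih =>
    intro g s hs hg
    simp only [num]
    rcases Nat.eq_zero_or_pos s with h | h
    · subst h
      omega
    · obtain ⟨s', rfl⟩ : ∃ s', s = s' + 1 := ⟨s - 1, by omega⟩
      have := ih (fun t => g (t + 1)) s' (by omega) hg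
      have := Nat.mul_pos hb this
      omega

theorem arun_num_congr {Q B : Type} [AddCommMonoid B] {b : ℕ} (m : ℕ) :
    ∀ (δ : ℕ → Q → ℕ → Q × B) (q : Q) (g g' : ℕ → ℕ), (∀ t < m, g t < b) →
      (∀ t < m, g' t < b) → (∀ t < m, ∀ q, δ t q (g t) = δ t q (g' t)) →
      arun b δ m q (num b m g) = arun b δ m q (num b m g') := by
  induction m with
  | zero => intro δ q g g' _ _ _; rfl
  | succ m ih =>
    intro δ q g g' hg hg' h
    have e : ∀ f : ℕ → ℕ, (∀ t < m + 1, f t < b) →
        num b (m + 1) f % b = f 0 ∧ num b (m + 1) f / b = num b m (fun t => f (t + 1)) := by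
      intro f hf
      have h0 := hf 0 (by omega)
      have hb0 : 0 < b := by omega
      simp only [num]
      refine ⟨?_, ?_⟩
      · rw [Nat.add_mul_mod_self_left, Nat.mod_eq_of_lt h0]
      · rw [Nat.add_mul_div_left _ _ hb0, Nat.div_eq_of_lt h0, zero_add]
    obtain ⟨e1, e2⟩ := e g hg
    obtain ⟨e3, e4⟩ := e g' hg'
    simp only [arun]
    rw [e1, e2, e3, e4, h 0 (by omega) q,
      ih (fun i => δ (i + 1)) (δ 0 q (g' 0)).1 (fun t => g (t + 1)) (fun t => g' (t + 1))
        (fun t ht => hg (t + 1) (by omega)) (fun t ht => hg' (t + 1) (by omega))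
        (fun t ht q => h (t + 1) (by omega) q)]

/-- ROW B. -/
theorem rowB {Q B : Type} [Finite Q] [AddCommMonoid B] {b : ℕ} (hb : 2 ≤ b)
    {𝒟 : Set (Q → ℕ → Q × B)} (h𝒟 : 𝒟.Finite) {K : ℕ}
    (hA : ∀ γ ∈ 𝒟, ∃ a Δ : ℕ, 0 < Δ ∧ a + Δ + K ≤ b ∧
      ∀ i < K, ∀ q, γ q (a + i + Δ) = γ q (a + i)) :
    ∃ m : ℕ, 0 < m ∧ ∀ δ : ℕ → Q → ℕ → Q × B, (∀ i, δ i ∈ 𝒟) → ∀ q : Q,
      ∃ x y Δ : ℕ, 0 < y ∧ 0 < Δ ∧ Δ ≤ b ∧ (∀ i < Δ + K, x + i * y < b ^ m) ∧
        (∀ i < Δ + K, (arun b δ m q (x + i * y)).1 = (arun b δ m q x).1) ∧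
        ∀ i < K, arun b δ m q (x + (i + Δ) * y) = arun b δ m q (x + i * y) := by
  classical
  obtain ⟨ι, hι, hHJ⟩ := Combinatorics.Line.exists_mono_in_high_dimension (Fin b) Q
  refine ⟨h𝒟.toFinset.card * Fintype.card ι + 1, by omega, fun δ hδ q => ?_⟩
  set m := h𝒟.toFinset.card * Fintype.card ι + 1 with hm
  -- a step that occurs often
  obtain ⟨γ, hγ, hcard⟩ := Finset.exists_lt_card_fiber_of_mul_lt_card_of_maps_to
    (s := Finset.range m) (t := h𝒟.toFinset) (f := δ) (n := Fintype.card ι)
    (fun t _ => h𝒟.mem_toFinset.2 (hδ t)) (by rw [Finset.card_range]; omega)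
  have hγ' : γ ∈ 𝒟 := h𝒟.mem_toFinset.1 hγ
  obtain ⟨e⟩ : Nonempty (ι ↪ {x // x ∈ (Finset.range m).filter (fun t => δ t = γ)}) := by
    apply Function.Embedding.nonempty_of_card_le
    rw [Fintype.card_coe]
    exact hcard.le
  have he1 : ∀ i, (e i : ℕ) < m := fun i => Finset.mem_range.1 (Finset.mem_filter.1 (e i).2).1
  have he2 : ∀ i, δ (e i : ℕ) = γ := fun i => (Finset.mem_filter.1 (e i).2).2
  -- the positions
  obtain ⟨inv, hinv1, hinv2⟩ : ∃ inv : ℕ → Option ι, (∀ i, inv (e i : ℕ) = some i) ∧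
      ∀ t i, inv t = some i → (e i : ℕ) = t := by
    refine ⟨fun t => if h : ∃ i, (e i : ℕ) = t then some h.choose else none, ?_, ?_⟩
    · intro i
      have h : ∃ j, (e j : ℕ) = (e i : ℕ) := ⟨i, rfl⟩
      simp only [dif_pos h]
      have h1 := h.choose_spec
      exact congrArg some (e.injective (Subtype.ext h1))
    · intro t i hti
      by_cases h : ∃ i, (e i : ℕ) = t
      · simp only [dif_pos h, Option.some.injEq] at hti
        rw [← hti]
        exact h.choose_spec
      · simp only [dif_neg h] at hti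
        exact absurd hti (by simp)
  let G : (ι → Fin b) → ℕ → ℕ := fun f t => (inv t).elim 0 (fun i => (f i : ℕ))
  have hGlt : ∀ f t, G f t < b := by
    intro f t
    simp only [G]
    cases inv t with
    | none => simp; omega
    | some i => exact (f i).2
  obtain ⟨l, c, hc⟩ := hHJ (fun f => (arun b δ m q (num b m (G f))).1)
  let g0 : ℕ → ℕ := fun t => (inv t).elim 0 (fun i => (l.idxFun i).elim 0 (fun a => (a : ℕ)))
  let h0 : ℕ → ℕ := fun t => (inv t).elim 0 (fun i => (l.idxFun i).elim 1 (fun _ => 0))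
  have hG : ∀ d : Fin b, G (l d) = fun t => g0 t + (d : ℕ) * h0 t := by
    intro d
    funext t
    simp only [G, g0, h0]
    cases inv t with
    | none => simp
    | some i =>
      simp only [Option.elim_some, Combinatorics.Line.apply_def]
      cases l.idxFun i with
      | none => simp
      | some a => simp
  have hnum : ∀ d : Fin b, num b m (G (l d)) = num b m g0 + (d : ℕ) * num b m h0 := by
    intro d
    rw [hG d, num_lin]
  obtain ⟨a, Δ, hΔ, hab, hstep⟩ := hA γ hγ'
  have hpos : 0 < num b m h0 := by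
    obtain ⟨i, hi⟩ := l.proper
    refine num_pos (by omega) m h0 (e i : ℕ) (he1 i) ?_
    simp only [h0, hinv1 i, Option.elim_some, hi, Option.elim_none]
    exact one_pos
  have hx : ∀ i < Δ + K, ∀ h : a + i < b,
      num b m g0 + a * num b m h0 + i * num b m h0 = num b m (G (l ⟨a + i, h⟩)) := by
    intro i _ h
    rw [hnum]
    ring
  refine ⟨num b m g0 + a * num b m h0, num b m h0, Δ, hpos, hΔ, by omega, ?_, ?_, ?_⟩
  · intro i hi
    rw [hx i hi (by omega)]
    exact num_lt m _ (fun t _ => hGlt _ t)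
  · intro i hi
    have h1 := hx 0 (by omega) (by omega)
    rw [zero_mul, add_zero] at h1
    rw [hx i hi (by omega), h1]
    exact (hc _).trans (hc _).symm
  · intro i hi
    rw [hx i (by omega) (by omega), hx (i + Δ) (by omega) (by omega)]
    refine arun_num_congr m δ q _ _ (fun t _ => hGlt _ t) (fun t _ => hGlt _ t) ?_
    intro t _ q'
    simp only [G]
    cases hti : inv t with
    | none => rfl
    | some j =>
      simp only [Option.elim_some, Combinatorics.Line.apply_def]
      cases l.idxFun j with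
      | some a' => rfl
      | none =>
        simp only [Option.getD_none]
        have h1 := hinv2 t j hti
        rw [← h1, he2 j]
        have h2 := hstep i hi q'
        rw [show a + (i + Δ) = a + i + Δ by ring]
        exact h2

end Vale.Agent.P057.R3.H244
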