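import Mathlib

/-!
Row RPOW of P057.DigitStatistics, part II: `(B - 1) ^ T` as a power saving, `N < B ^ T ≤ B * N`.
-/

set_option autoImplicit false

namespace Vale.Agent.P057.R3.H244

theorem to_rpow {B : ℕ} (hB : 3 ≤ B) : ∃ θ C : ℝ, 0 < θ ∧ θ < 1 ∧ 0 < C ∧
    ∀ N : ℕ, 1 ≤ N → ∃ T : ℕ, N + 1 ≤ B ^ T ∧ ((B - 1 : ℕ) : ℝ) ^ T ≤ C * (N : ℝ) ^ θ := by
  have hB3 : (3 : ℝ) ≤ B := by exact_mod_cast hB
  have hB0 : (0 : ℝ) < B := by linarith
  have hlogB : 0 < Real.log B := Real.log_pos (by linarith)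
  have hB1 : ((B - 1 : ℕ) : ℝ) = (B : ℝ) - 1 := by
    rw [Nat.cast_sub (by omega)]
    norm_num
  have hlog1 : 0 < Real.log ((B : ℝ) - 1) := Real.log_pos (by linarith)
  have hBθ : (B : ℝ) ^ (Real.log ((B : ℝ) - 1) / Real.log B) = (B : ℝ) - 1 := by
    rw [Real.rpow_def_of_pos hB0, mul_div_cancel₀ _ hlogB.ne', Real.exp_log (by linarith)]
  refine ⟨Real.log ((B : ℝ) - 1) / Real.log B,
    (B : ℝ) ^ (Real.log ((B : ℝ) - 1) / Real.log B), div_pos hlog1 hlogB, ?_, by positivity,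
    fun N hN => ⟨Nat.log B N + 1, Nat.lt_pow_succ_log_self (by omega) N, ?_⟩⟩
  · rw [div_lt_one hlogB]
    exact Real.log_lt_log (by linarith) (by linarith)
  · set θ : ℝ := Real.log ((B : ℝ) - 1) / Real.log B with hθ
    have hθ0 : 0 < θ := div_pos hlog1 hlogB
    have h2 : B ^ Nat.log B N ≤ N := Nat.pow_log_le_self B (by omega)
    rw [hB1, ← hBθ, ← Real.rpow_natCast ((B : ℝ) ^ θ), ← Real.rpow_mul hB0.le, mul_comm θ,
      Real.rpow_mul hB0.le, Real.rpow_natCast, ← Real.mul_rpow hB0.le (Nat.cast_nonneg N)]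
    refine Real.rpow_le_rpow (by positivity) ?_ hθ0.le
    rw [pow_succ, mul_comm]
    exact mul_le_mul_of_nonneg_left (by exact_mod_cast h2) hB0.le

end Vale.Agent.P057.R3.H244
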